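import Vale.Agent.P163.H354.Final
import Vale.Agent.Results.P163.ExponentialDecay

open MeasureTheory
open scoped RealInnerProductSpace

namespace Vale.Agent.Results.P163.SymmetryRestoration

open Vale.Agent.P163.Model Vale.Agent.P163.Universal Vale.Agent.P163.Restoration

/-- Mass generation in the two-dimensional `O(n)` model, `n ≥ 3`, at every temperature, and
restoration of the rotation symmetry across every annulus. -/
theorem result (n : ℕ) (hn : 3 ≤ n) (β : ℝ) (hβ : 0 < β) :
    -- (1) exponential decay in all infinite-volume states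
    (∃ C m : ℝ, 0 < m ∧ ∀ μ : Measure (ℤ × ℤ → Spin n), IsInfiniteVolumeState n β μ →
      ∀ x y : ℤ × ℤ, ∫ σ, ⟪(σ x : E n), (σ y : E n)⟫ ∂μ ≤ C * Real.exp (-m * dist2 x y)) ∧
    (∀ ε : ℝ, 0 < ε → ∃ C c : ℝ, 0 < c ∧
      -- (2) restoration of the rotation symmetry across an annulus of width `R`:
      -- in all finite regions that contain the annulus, for all boundary spins
      (∀ (x : ℤ × ℤ) (r R : ℕ) (Λ : Finset (ℤ × ℤ)) (η : ℤ × ℤ → Spin n),
        (∀ y, supDist y x < r + R → y ∈ Λ) →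
        Restores x r R (fun F => ∫ s, F (glue Λ s η) ∂(bcState n β Λ η))
          (C * (r + 1) * nearExp c ε R)) ∧
      -- in all infinite-volume states and all Gibbs states
      (∀ μ : Measure (ℤ × ℤ → Spin n), IsState n β μ →
        (∀ (x : ℤ × ℤ) (r R : ℕ), Restores x r R (fun F => ∫ σ, F σ ∂μ)
          (C * (r + 1) * nearExp c ε R)) ∧
        -- (3) the joint law of distant spins is almost that of independent uniform spins
        ∀ (x y : ℤ × ℤ) (Φ : Spin n × Spin n → ℝ), Continuous Φ → (∀ p, |Φ p| ≤ 1) →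
          |∫ σ, Φ (σ x, σ y) ∂μ - ∫ p, Φ p ∂((unif n).prod (unif n))| ≤
            C * nearExp c ε (dist2 x y))) := by
  have : NeZero n := ⟨by omega⟩
  refine ⟨Vale.Agent.Results.P163.ExponentialDecay.result n hn β hβ, fun ε hε => ?_⟩
  obtain ⟨C, c, hc, hC, h⟩ := Vale.Agent.P163.H354.restore hn hβ.le hε
  have hRB : Vale.Agent.P163.H354.RB n β (Vale.Agent.P163.H354.rate C c ε) := h
  refine ⟨C, c / 2, by positivity, fun x r R Λ η hΛ F hFc hF hF1 U hU => ?_,
    fun μ hμ => ⟨fun x r R F hFc hF hF1 U hU => ?_, fun x y Φ hΦ hΦ1 => ?_⟩⟩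
  · exact (Vale.Agent.P163.H354.region_form hRB hFc hF hF1 hU hΛ η).trans
      (Vale.Agent.P163.H354.rate_half hC hc r R)
  · exact ((Vale.Agent.P163.H354.RM_of_gibbs hRB hμ).2 x r R F hFc hF hF1 U hU).trans
      (Vale.Agent.P163.H354.rate_half hC hc r R)
  · exact Vale.Agent.P163.H354.pair_dist hn hC hc hε
      (Vale.Agent.P163.H354.RM_of_gibbs hRB hμ) x y hΦ hΦ1

end Vale.Agent.Results.P163.SymmetryRestoration
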