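import Vale.Agent.P163.H841.Plus

open MeasureTheory
open scoped RealInnerProductSpace

namespace Vale.Agent.Results.P163.UniversalDecay

open Vale.Agent.P163.Model Vale.Agent.P163.Universal

/-- Mass generation in the two-dimensional `O(n)` model, `n ≥ 3`, at every temperature, for every
boundary condition. -/
theorem result (n : ℕ) (hn : 3 ≤ n) :
    -- exponential decay, uniformly for `β` in bounded intervals
    (∀ β₀ : ℝ, 0 < β₀ → ∃ C m : ℝ, 0 < m ∧ ∀ β : ℝ, 0 < β → β ≤ β₀ →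
      -- in all infinite-volume states
      (∀ μ : Measure (ℤ × ℤ → Spin n), IsInfiniteVolumeState n β μ → ∀ x y : ℤ × ℤ,
        ∫ σ, ⟪(σ x : E n), (σ y : E n)⟫ ∂μ ≤ C * Real.exp (-m * dist2 x y)) ∧
      -- in all finite ferromagnets that contain a box of the square lattice
      (∀ (V : Type) [Fintype V] (J : V → V → ℝ) (ι : ℤ × ℤ → V) (r : ℕ), ContainsBox β r J ι →
        ∀ v : V, (∀ x : ℤ × ℤ, supDist x 0 < r → v ≠ ι x) →
          ∫ σ, ⟪(σ (ι 0) : E n), (σ v : E n)⟫ ∂(gibbs n J) ≤ C * Real.exp (-m * r)) ∧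
      -- for the magnetization in all finite regions with a constant boundary condition
      (∀ (Λ : Finset (ℤ × ℤ)) (x : ℤ × ℤ) (r : ℕ) (e : Spin n),
        (∀ y : ℤ × ℤ, supDist y x < r → y ∈ Λ) →
          ∫ s, ⟪(e : E n), (glue Λ s (fun _ => e) x : E n)⟫ ∂(bcState n β Λ fun _ => e) ≤
            C * Real.exp (-m * r))) ∧
    -- arbitrary boundary conditions and all Gibbs states
    (∀ β : ℝ, 0 < β → ∀ ε : ℝ, 0 < ε → ∃ C c : ℝ, 0 < c ∧
      (∀ (Λ : Finset (ℤ × ℤ)) (x : ℤ × ℤ) (r : ℕ) (η : ℤ × ℤ → Spin n) (w : E n), ‖w‖ = 1 →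
        (∀ y : ℤ × ℤ, supDist y x < r → y ∈ Λ) →
          |∫ s, ⟪w, (glue Λ s η x : E n)⟫ ∂(bcState n β Λ η)| ≤
            C * Real.exp (-c * r / Real.log (r + 3) ^ ε)) ∧
      (∀ μ : Measure (ℤ × ℤ → Spin n), IsGibbs n β μ → ∀ x y : ℤ × ℤ,
        |∫ σ, ⟪(σ x : E n), (σ y : E n)⟫ ∂μ| ≤
          C * Real.exp (-c * dist2 x y / Real.log (dist2 x y + 3) ^ ε))) := by
  have : NeZero n := ⟨by omega⟩
  refine ⟨fun β₀ hβ₀ => ?_, fun β hβ ε hε => ?_⟩
  · obtain ⟨R0, hR0, h⟩ := Vale.Agent.P163.H841.MB_unif hn hβ₀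
    have hR0r : (0 : ℝ) < R0 := by exact_mod_cast hR0
    have hlog : 0 < Real.log 2 := Real.log_pos (by norm_num)
    refine ⟨4, Real.log 2 / (2 * (R0 + 1)), by positivity, fun β hβ hββ => ?_⟩
    obtain ⟨R, M, hR, hRR, hM, hMB, hq⟩ := h β hβ.le hββ
    refine ⟨fun μ hμ x y => ?_, fun V _ J ι r hbox v hv => ?_, fun Λ x r e hΛ => ?_⟩
    · refine (Vale.Agent.P163.H841.state_decay hn hβ hR hRR hM hMB hq hμ x y).trans ?_
      exact mul_le_mul_of_nonneg_right (by norm_num) (Real.exp_pos _).le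
    · refine (Vale.Agent.P163.H841.ferro_decay hn hβ.le hR hRR hM hMB hq hbox hv).trans ?_
      exact mul_le_mul_of_nonneg_right (by norm_num) (Real.exp_pos _).le
    · exact Vale.Agent.P163.H841.plus_decay hn hβ.le hR hRR hM hMB hq hΛ e
  · obtain ⟨C, c, hC, hc, h⟩ := Vale.Agent.P163.H841.MB_nearly hn hβ.le hε
    refine ⟨C, c / 2, by positivity, fun Λ x r η w hw hΛ => ?_, fun μ hμ x y => ?_⟩
    · refine (Vale.Agent.P163.H841.region_bound (h r) hΛ hw η).trans ?_
      refine mul_le_mul_of_nonneg_left ?_ hC.le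
      rw [Real.exp_le_exp]
      have hr0 : (0 : ℝ) ≤ r := Nat.cast_nonneg r
      have hl : 0 ≤ Real.log ((r : ℝ) + 3) ^ ε :=
        Real.rpow_nonneg (Real.log_nonneg (by linarith)) _
      have h1 : 0 ≤ c * r / Real.log ((r : ℝ) + 3) ^ ε := by positivity
      have e1 : -c * r / Real.log ((r : ℝ) + 3) ^ ε = -(c * r / Real.log ((r : ℝ) + 3) ^ ε) := by
        ring
      have e2 : -(c / 2) * r / Real.log ((r : ℝ) + 3) ^ ε =
          -(c * r / Real.log ((r : ℝ) + 3) ^ ε) / 2 := by ring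
      rw [e1, e2]
      linarith
    · have hs0 : 0 ≤ supDist y x := le_max_of_le_left (abs_nonneg _)
      obtain ⟨r, hr⟩ := Int.eq_ofNat_of_zero_le hs0
      refine (Vale.Agent.P163.H841.gibbs_bound (h r) hμ hr.ge).trans ?_
      refine mul_le_mul_of_nonneg_left ?_ hC.le
      rw [Real.exp_le_exp]
      have hrr : (supDist y x : ℝ) = r := by rw [hr]; simp
      have hd1 : dist2 x y ≤ 2 * (r : ℝ) := by
        have h1 := Vale.Agent.P163.dist2_le x y
        have h2 : Vale.Agent.P163.sd x y = supDist y x := by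
          unfold Vale.Agent.P163.sd supDist
          rw [abs_sub_comm x.1, abs_sub_comm x.2]
        rw [h2, hrr] at h1
        exact h1
      have hd2 : (r : ℝ) ≤ dist2 x y := by
        rw [← hrr]
        unfold dist2 supDist
        push_cast
        refine max_le ?_ ?_
        · rw [abs_sub_comm]
          exact Real.abs_le_sqrt (by nlinarith [sq_nonneg ((x.2 : ℝ) - y.2)])
        · rw [abs_sub_comm]
          exact Real.abs_le_sqrt (by nlinarith [sq_nonneg ((x.1 : ℝ) - y.1)])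
      have hr0 : (0 : ℝ) ≤ r := by positivity
      have hl0 : 0 < Real.log ((r : ℝ) + 3) := Real.log_pos (by linarith)
      have hl1 : Real.log ((r : ℝ) + 3) ≤ Real.log (dist2 x y + 3) :=
        Real.log_le_log (by linarith) (by linarith)
      have hl2 : Real.log ((r : ℝ) + 3) ^ ε ≤ Real.log (dist2 x y + 3) ^ ε :=
        Real.rpow_le_rpow hl0.le hl1 hε.le
      have hp : 0 < Real.log ((r : ℝ) + 3) ^ ε := Real.rpow_pos_of_pos hl0 _
      have hkey : c / 2 * dist2 x y / Real.log (dist2 x y + 3) ^ ε ≤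
          c * r / Real.log ((r : ℝ) + 3) ^ ε := by
        refine div_le_div₀ (by positivity) ?_ hp hl2
        nlinarith only [hd1, hc]
      have e1 : -c * r / Real.log ((r : ℝ) + 3) ^ ε = -(c * r / Real.log ((r : ℝ) + 3) ^ ε) := by
        ring
      have e2 : -(c / 2) * dist2 x y / Real.log (dist2 x y + 3) ^ ε =
          -(c / 2 * dist2 x y / Real.log (dist2 x y + 3) ^ ε) := by ring
      rw [e1, e2]
      linarith

end Vale.Agent.Results.P163.UniversalDecay
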